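import Vale.Agent.P068.Uniform
import Mathlib.Combinatorics.Matroid.Circuit
import Mathlib.SetTheory.Cardinal.Arithmetic
import Mathlib.SetTheory.Cardinal.Ordinal
import Mathlib.SetTheory.Ordinal.Family

/-! Repeated families of matroids with small circuits. -/

namespace Vale.Agent.P068

open Cardinal Set Matroid

universe u

variable {α Θ : Type u}

/-- No small set is needed for spanning inside `P`. -/
def Stable (κ : Cardinal.{u}) (M : Θ → Matroid α) (P : Set α) : Prop :=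
  ∀ (i : Θ) (L : Set α), #L ≤ κ → P ⊆ (M i).closure (P \ L)

/-- Peel small pieces off `E` until the rest is stable, recording ranks of the peeled elements. -/
lemma exists_layers [Nonempty Θ] {κ : Cardinal.{u}} (E : Set α) (M : Θ → Matroid α)
    (hE : ∀ i, (M i).E = E) :
    ∃ P ⊆ E, Stable κ M P ∧ ∃ (rk : α → Ordinal.{u}) (ty : Ordinal.{u} → Θ),
      ∀ d ∈ E \ P, #({x | x ∈ E \ P ∧ rk x = rk d} : Set α) ≤ κ ∧
        d ∉ (M (ty (rk d))).closure (P ∪ {x | x ∈ E \ P ∧ rk d < rk x}) := by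
  classical
  have hstep : ∀ X : Set α, ∃ (i : Θ) (L : Set α), #L ≤ κ ∧
      (Stable κ M X ∨ ¬ X ⊆ (M i).closure (X \ L)) := by
    intro X
    by_cases h : Stable κ M X
    · exact ⟨Classical.arbitrary Θ, ∅, by simp, Or.inl h⟩
    · simp only [Stable] at h
      push Not at h
      obtain ⟨i, L, hL, hn⟩ := h
      exact ⟨i, L, hL, Or.inr hn⟩
  choose ci cL hL hbad using hstep
  let nx : Set α → Set α := fun X => X ∩ (M (ci X)).closure (X \ cL X)
  let X : Ordinal.{u} → Set α :=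
    WellFoundedLT.fix fun o rec => E ∩ ⋂ s : {s // s < o}, nx (rec s.1 s.2)
  have hX : ∀ o, X o = E ∩ ⋂ s : {s // s < o}, nx (X s.1) := fun o => WellFoundedLT.fix_eq _ o
  have hlt : ∀ s o, s < o → X o ⊆ nx (X s) := fun s o h => by
    rw [hX o]
    exact inter_subset_right.trans (iInter_subset (fun r : {r // r < o} => nx (X r.1)) ⟨s, h⟩)
  have hXE : ∀ o, X o ⊆ E := fun o => by rw [hX o]; exact inter_subset_left
  obtain ⟨o₀, hst⟩ : ∃ o, Stable κ M (X o) := by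
    by_contra hno
    push Not at hno
    have key : ∀ s o, s < o → X o ≠ X s := fun s o h he =>
      ((hbad (X s)).resolve_left (hno s)) ((he ▸ hlt s o h).trans inter_subset_right)
    refine not_injective_of_ordinal X fun s o hso => ?_
    by_contra hne
    rcases lt_or_gt_of_ne hne with h | h
    · exact key _ _ h hso.symm
    · exact key _ _ h hso
  have hout : ∀ d ∈ E, d ∉ X o₀ → ∃ o, o < o₀ ∧ d ∈ X o ∧ d ∉ nx (X o) := by
    intro d hd hdX
    have hex : ∃ o, o < o₀ ∧ d ∉ nx (X o) := by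
      by_contra hall
      push Not at hall
      exact hdX (by rw [hX o₀]; exact ⟨hd, mem_iInter.2 fun s => hall _ s.2⟩)
    obtain ⟨o, ⟨ho, ho'⟩, hmin⟩ :=
      wellFounded_lt.has_min {o : Ordinal.{u} | o < o₀ ∧ d ∉ nx (X o)} hex
    refine ⟨o, ho, ?_, ho'⟩
    rw [hX o]
    exact ⟨hd, mem_iInter.2 fun s =>
      by_contra fun hs => hmin s.1 ⟨s.2.trans ho, hs⟩ s.2⟩
  choose rk₀ hrk₀ hrk₁ hrk₂ using hout
  let rk : α → Ordinal.{u} := fun d =>
    if h : d ∈ E ∧ d ∉ X o₀ then rk₀ d h.1 h.2 else 0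
  have hrk : ∀ d ∈ E \ X o₀, rk d < o₀ ∧ d ∈ X (rk d) ∧ d ∉ nx (X (rk d)) := by
    intro d hd
    simp only [rk, dif_pos (show d ∈ E ∧ d ∉ X o₀ from hd)]
    exact ⟨hrk₀ d hd.1 hd.2, hrk₁ d hd.1 hd.2, hrk₂ d hd.1 hd.2⟩
  refine ⟨X o₀, hXE _, hst, rk, fun o => ci (X o), fun d hd => ⟨?_, fun hcl => ?_⟩⟩
  · refine le_trans (mk_le_mk_of_subset ?_) (hL (X (rk d)))
    rintro x ⟨hx, hxd⟩
    obtain ⟨-, h1, h2⟩ := hrk x hx
    rw [hxd] at h1 h2
    exact by_contra fun hxL => h2 ⟨h1, (M _).subset_closure _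
      (sdiff_subset.trans ((hE _).symm ▸ hXE _)) ⟨h1, hxL⟩⟩
  · obtain ⟨hd0, h1, h2⟩ := hrk d hd
    refine h2 ⟨h1, (M _).closure_subset_closure_of_subset_closure ?_ hcl⟩
    rintro x (hx | ⟨hx, hxd⟩)
    · exact (hlt _ _ hd0 hx).2
    · exact (hlt _ _ hxd (hrk x hx).2.1).2

/-- The peeled part of a repeated family is covered. -/
lemma exists_stable_rest [Nonempty Θ] {κ : Cardinal.{u}} (E : Set α) (M : Θ → Matroid α)
    (hE : ∀ i, (M i).E = E) (hrep : ∀ i, κ ≤ #{j // M j = M i}) :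
    ∃ P ⊆ E, Stable κ M P ∧ ∃ I : Θ → Set α,
      (∀ i, I i ⊆ E \ P ∧ ((M i) ／ P).Indep (I i)) ∧ E \ P ⊆ ⋃ i, I i := by
  classical
  obtain ⟨P, hPE, hst, rk, ty, hlay⟩ := exists_layers (κ := κ) E M hE
  let Lay : Ordinal.{u} → Set α := fun o => {x | x ∈ E \ P ∧ rk x = o}
  have hemb : ∀ o, Nonempty (Lay o ↪ {j // M j = M (ty o)}) := by
    intro o
    rcases (Lay o).eq_empty_or_nonempty with h | ⟨d, hd, hdo⟩
    · have : IsEmpty (Lay o) := isEmpty_coe_sort.2 h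
      exact ⟨Function.Embedding.ofIsEmpty⟩
    · refine (Cardinal.le_def _ _).1 (le_trans ?_ (hrep (ty o)))
      subst hdo
      exact (hlay d hd).1
  let f := fun o => (hemb o).some
  have finj : ∀ o₁ o₂ (x : Lay o₁) (y : Lay o₂), o₁ = o₂ → (f o₁ x).1 = (f o₂ y).1 →
      x.1 = y.1 := by
    rintro o₁ o₂ x y rfl h
    exact congrArg Subtype.val ((f o₁).injective (Subtype.ext h))
  let I : Θ → Set α := fun j =>
    {d | ∃ hd : d ∈ E \ P, (f (rk d) ⟨d, hd, rfl⟩).1 = j}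
  refine ⟨P, hPE, hst, I, fun j => ⟨fun d hd => hd.1, ?_⟩,
    fun d hd => mem_iUnion.2 ⟨_, hd, rfl⟩⟩
  obtain ⟨B, hB⟩ := (M j).exists_isBasis P (hPE.trans (hE j).ge)
  rw [hB.contract_indep_iff]
  refine ⟨?_, Set.disjoint_left.2 fun x hxP hxI => hxI.1.2 hxP⟩
  by_contra hdep
  have hsub : I j ∪ B ⊆ (M j).E :=
    union_subset (fun d hd => (hE j).symm ▸ hd.1.1) hB.indep.subset_ground
  obtain ⟨K, hK, hKc⟩ := ((not_indep_iff hsub).1 hdep).exists_isCircuit_subset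
  have hne : {o : Ordinal.{u} | ∃ d ∈ K, d ∈ I j ∧ rk d = o}.Nonempty := by
    by_contra hnone
    refine hKc.dep.not_indep (hB.indep.subset fun x hx => ?_)
    rcases hK hx with h | h
    · exact absurd ⟨_, x, hx, h, rfl⟩ hnone
    · exact h
  obtain ⟨_, ⟨d, hdK, hdI, rfl⟩, hmin⟩ := wellFounded_lt.has_min _ hne
  obtain ⟨hd, hdj⟩ := hdI
  have hM : M j = M (ty (rk d)) := hdj ▸ (f (rk d) ⟨d, hd, rfl⟩).2
  refine (hlay d hd).2 ?_
  rw [← hM]
  refine (M j).closure_subset_closure ?_ (hKc.mem_closure_sdiff_singleton_of_mem hdK)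
  rintro x ⟨hxK, hxd⟩
  rcases hK hxK with ⟨hx, hxj⟩ | hxB
  · refine Or.inr ⟨hx, lt_of_le_of_ne (not_lt.1 (hmin _ ⟨x, hxK, ⟨hx, hxj⟩, rfl⟩)) fun he => hxd ?_⟩
    exact (finj _ _ ⟨d, hd, rfl⟩ ⟨x, hx, rfl⟩ he (hdj.trans hxj.symm)).symm
  · exact Or.inl (hB.subset hxB)
/-- A small union of small sets is small. -/
lemma mk_iUnion_le_kappa {κ : Cardinal.{u}} (hκ : ℵ₀ ≤ κ) {ι : Type u} (A : ι → Set α)
    (hι : #ι ≤ κ) (hA : ∀ i, #(A i) ≤ κ) : #(⋃ i, A i) ≤ κ := by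
  refine (mk_iUnion_le A).trans ?_
  refine (mul_le_mul' hι (ciSup_le' hA)).trans ?_
  rw [mul_eq_self hκ]

/-- A small set of requirements is met by pairwise disjoint small sets avoiding a small set. -/
lemma exists_disjoint_witness {κ : Cardinal.{u}} (hκ : ℵ₀ ≤ κ) {M : Θ → Matroid α} {P : Set α}
    (hP : Stable κ M P) (hK : ∀ i C, (M i).IsCircuit C → #C ≤ κ)
    (Q : Type u) (hQ : #Q ≤ κ) (y : Q → α) (c : Q → Θ) (L : Set α) (hL : #L ≤ κ)
    (hy : ∀ r, y r ∈ P ∧ y r ∈ L) :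
    ∃ W : Q → Set α, (∀ r, W r ⊆ P \ L ∧ #(W r) ≤ κ ∧ y r ∈ (M (c r)).closure (W r)) ∧
      ∀ r r', r ≠ r' → Disjoint (W r) (W r') := by
  classical
  have step : ∀ (r : Q) (L' : Set α), ∃ W : Set α, #L' ≤ κ →
      W ⊆ P \ (L ∪ L') ∧ #W ≤ κ ∧ y r ∈ (M (c r)).closure W := by
    intro r L'
    by_cases hL' : #L' ≤ κ
    swap
    · exact ⟨∅, fun h => absurd h hL'⟩
    have hU : #(L ∪ L' : Set α) ≤ κ := (mk_union_le _ _).trans (add_le_of_le hκ hL hL')
    have hm := hP (c r) _ hU (hy r).1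
    obtain ⟨C, hC, hCc, hyC⟩ :=
      exists_isCircuit_of_mem_closure hm (fun h => h.2 (Or.inl (hy r).2))
    refine ⟨C \ {y r}, fun _ => ⟨fun x hx => (mem_insert_iff.1 (hC hx.1)).resolve_left hx.2,
      (mk_le_mk_of_subset sdiff_subset).trans (hK _ _ hCc),
      hCc.mem_closure_sdiff_singleton_of_mem hyC⟩⟩
  choose g hg using step
  let : LinearOrder Q := linearOrderOfSTO WellOrderingRel
  have : WellFoundedLT Q := ⟨WellOrderingRel.isWellOrder.wf⟩
  let W : Q → Set α := WellFoundedLT.fix fun r rec => g r (⋃ s : {s // s < r}, rec s.1 s.2)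
  have hW : ∀ r, W r = g r (⋃ s : {s // s < r}, W s.1) := fun r => WellFoundedLT.fix_eq _ r
  have hgood : ∀ r, W r ⊆ P \ (L ∪ ⋃ s : {s // s < r}, W s.1) ∧ #(W r) ≤ κ ∧
      y r ∈ (M (c r)).closure (W r) := by
    intro r
    induction r using WellFoundedLT.induction with
    | ind r ih =>
      rw [hW r]
      exact hg r _ (mk_iUnion_le_kappa hκ (fun s : {s // s < r} => W s.1)
        ((mk_subtype_le _).trans hQ) fun s => (ih s.1 s.2).2.1)
  refine ⟨W, fun r => ⟨(hgood r).1.trans (sdiff_subset_sdiff_right subset_union_left),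
    (hgood r).2⟩, fun r r' hne => ?_⟩
  have key : ∀ s r, s < r → Disjoint (W s) (W r) := fun s r h =>
    Set.disjoint_left.2 fun x hx hx' =>
      ((hgood r).1 hx').2 (Or.inr (mem_iUnion.2 ⟨⟨s, h⟩, hx⟩))
  rcases lt_or_gt_of_ne hne with h | h
  · exact key _ _ h
  · exact (key _ _ h).symm

/-- A stable set packs. -/
lemma exists_packing {κ : Cardinal.{u}} (hκ : ℵ₀ ≤ κ) (hΘ : #Θ ≤ κ) {M : Θ → Matroid α}
    {P : Set α} (hPE : ∀ i, P ⊆ (M i).E) (hP : Stable κ M P)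
    (hK : ∀ i C, (M i).IsCircuit C → #C ≤ κ) :
    ∃ S : Θ → Set α, (∀ i, S i ⊆ P) ∧ (∀ i j, i ≠ j → Disjoint (S i) (S j)) ∧
      ∀ i, P ⊆ (M i).closure (S i) := by
  classical
  let cov : Set (Θ × α) → Set α := fun G =>
    {x | x ∈ P ∧ ∀ i, x ∈ (M i).closure {z | (i, z) ∈ G}}
  let good : Set (Set (Θ × α)) :=
    {G | (∀ p ∈ G, p.2 ∈ cov G) ∧ ∀ p ∈ G, ∀ p' ∈ G, p.2 = p'.2 → p = p'}
  have hcovmono : ∀ {G G' : Set (Θ × α)}, G ⊆ G' → cov G ⊆ cov G' := fun h x hx =>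
    ⟨hx.1, fun i => (M i).closure_subset_closure (fun z (hz : (i, z) ∈ _) => h hz) (hx.2 i)⟩
  obtain ⟨G, hG⟩ : ∃ G, Maximal (· ∈ good) G := zorn_subset good fun c hc hchain => by
    refine ⟨⋃₀ c, ⟨fun p ⟨G, hG, hp⟩ => hcovmono (subset_sUnion_of_mem hG) ((hc hG).1 p hp),
      fun p ⟨G, hG, hp⟩ p' ⟨G', hG', hp'⟩ he => ?_⟩, fun _ => subset_sUnion_of_mem⟩
    rcases hchain.total hG hG' with h | h
    · exact (hc hG').2 p (h hp) p' hp' he
    · exact (hc hG).2 p hp p' (h hp') he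
  obtain ⟨hGc, hGi⟩ := hG.prop
  refine ⟨fun i => {z | (i, z) ∈ G}, fun i z hz => (hGc _ hz).1, fun i j hij =>
    Set.disjoint_left.2 fun z hz hz' => hij (congrArg Prod.fst (hGi _ hz _ hz' rfl)),
    fun i x hx => ?_⟩
  suffices hall : x ∈ cov G from hall.2 i
  by_contra hx'
  -- grow a small set closed under requirements, disjointly
  have hstep : ∀ Y : Set α, ∃ W : Y × Θ → Set α, #Y ≤ κ → Y ⊆ P →
      (∀ r : Y × Θ, W r ⊆ P \ Y ∧ #(W r) ≤ κ ∧ r.1.1 ∈ (M r.2).closure (W r)) ∧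
        ∀ r r', r ≠ r' → Disjoint (W r) (W r') := by
    intro Y
    by_cases h : #Y ≤ κ ∧ Y ⊆ P
    · have hQ : #(Y × Θ) ≤ κ := by
        rw [mk_prod, lift_id, lift_id]
        exact (mul_le_mul' h.1 hΘ).trans (mul_eq_self hκ).le
      obtain ⟨W, hW⟩ := exists_disjoint_witness hκ hP hK (Y × Θ) hQ (fun r => r.1.1) (fun r => r.2)
        Y h.1 fun r => ⟨h.2 r.1.2, r.1.2⟩
      exact ⟨W, fun _ _ => hW⟩
    · exact ⟨fun _ => ∅, fun h1 h2 => absurd ⟨h1, h2⟩ h⟩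
  choose W hW using hstep
  let Y : ℕ → Set α := fun n => (fun Z : Set α => Z ∪ ⋃ r, W Z r)^[n] {x}
  have hYs : ∀ n, Y (n + 1) = Y n ∪ ⋃ r, W (Y n) r := fun n =>
    Function.iterate_succ_apply' (fun Z : Set α => Z ∪ ⋃ r, W Z r) n {x}
  have hY : ∀ n, #(Y n) ≤ κ ∧ Y n ⊆ P := by
    intro n
    induction n with
    | zero => exact ⟨(mk_singleton x).le.trans ((one_le_aleph0).trans hκ), singleton_subset_iff.2 hx⟩
    | succ n ih =>
      obtain ⟨h1, -⟩ := hW _ ih.1 ih.2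
      rw [hYs n]
      refine ⟨(mk_union_le _ _).trans (add_le_of_le hκ ih.1 (mk_iUnion_le_kappa hκ _ ?_
        fun r => (h1 r).2.1)),
        union_subset ih.2 (iUnion_subset fun r => (h1 r).1.trans sdiff_subset)⟩
      rw [mk_prod, lift_id, lift_id]
      exact (mul_le_mul' ih.1 hΘ).trans (mul_eq_self hκ).le
  have hYmono : ∀ m n, m ≤ n → Y m ⊆ Y n :=
    monotone_nat_of_le_succ (f := Y) fun n => (hYs n).symm ▸ subset_union_left
  let N : Set (Θ × α) :=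
    {p | p.2 ∉ cov G ∧ ∃ n, ∃ r : ↥(Y n) × Θ, r.2 = p.1 ∧ p.2 ∈ W (Y n) r}
  have hNY : ∀ p ∈ N, ∃ n, p.2 ∈ Y n ∧ p.2 ∈ P := by
    rintro p ⟨-, n, r, -, hp⟩
    have : p.2 ∈ Y (n + 1) := (hYs n).symm ▸ Or.inr (mem_iUnion.2 ⟨r, hp⟩)
    exact ⟨n + 1, this, (hY (n + 1)).2 this⟩
  have hYc : ∀ n, Y n ⊆ cov (G ∪ N) := by
    intro n z hz
    refine ⟨(hY n).2 hz, fun i => ?_⟩
    refine (M i).closure_subset_closure_of_subset_closure ?_
      (((hW _ (hY n).1 (hY n).2).1 (⟨z, hz⟩, i)).2.2)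
    intro w hw
    by_cases hwc : w ∈ cov G
    · exact (hcovmono subset_union_left hwc).2 i
    · refine (M i).subset_closure _ (fun v hv => ?_) (Or.inr ⟨hwc, n, (⟨z, hz⟩, i), rfl, hw⟩)
      rcases hv with hv | hv
      · exact hPE i (hGc _ hv).1
      · exact hPE i (hNY _ hv).choose_spec.2
  have hmemG : G ∪ N ∈ good := by
    refine ⟨?_, ?_⟩
    · rintro p (hp | hp)
      · exact hcovmono subset_union_left (hGc p hp)
      · obtain ⟨n, hn, -⟩ := hNY p hp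
        exact hYc n hn
    · rintro p (hp | hp) p' (hp' | hp') he
      · exact hGi p hp p' hp' he
      · exact absurd (he ▸ hGc p hp) hp'.1
      · exact absurd (he.symm ▸ hGc p' hp') hp.1
      · obtain ⟨-, n, r, hr, hpr⟩ := hp
        obtain ⟨-, n', r', hr', hpr'⟩ := hp'
        rw [← he] at hpr'
        have key : ∀ a b : ℕ, a < b → ∀ (s : ↥(Y a) × Θ) (s' : ↥(Y b) × Θ),
            p.2 ∈ W (Y a) s → p.2 ∈ W (Y b) s' → False := fun a b hab s s' hs hs' =>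
          (((hW _ (hY b).1 (hY b).2).1 s').1 hs').2
            (hYmono (a + 1) b hab ((hYs a).symm ▸ Or.inr (mem_iUnion.2 ⟨s, hs⟩)))
        rcases lt_trichotomy n n' with h | rfl | h
        · exact (key n n' h r r' hpr hpr').elim
        · have : r = r' := by_contra fun hne =>
            Set.disjoint_left.1 ((hW _ (hY n).1 (hY n).2).2 r r' hne) hpr hpr'
          exact Prod.ext (hr ▸ hr' ▸ this ▸ rfl) he
        · exact (key n' n h r' r hpr' hpr).elim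
  have hGN : G ∪ N ⊆ G := hG.2 hmemG subset_union_left
  exact hx' (hcovmono hGN (hYc 0 rfl))

/-- Repeated families whose circuits are small have packing/covering partitions. -/
theorem hasPC_of_small_circuits {α Θ : Type u} [Infinite Θ] (E : Set α) (M : Θ → Matroid α)
    (hE : ∀ i, (M i).E = E) (hK : ∀ i C, (M i).IsCircuit C → #C ≤ #Θ)
    (hrep : ∀ i, #{j // M j = M i} = #Θ) : HasPackingCovering E M := by
  classical
  obtain ⟨P, hPE, hst, I, hI, hcov⟩ := exists_stable_rest E M hE fun i => (hrep i).ge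
  obtain ⟨S, hS, hSd, hScl⟩ := exists_packing (aleph0_le_mk Θ) le_rfl
    (fun i => hPE.trans (hE i).ge) hst hK
  refine ⟨P, E \ P, union_sdiff_cancel hPE, disjoint_sdiff_right, S, I, hS, hSd, fun i => ?_,
    fun i => ⟨(hI i).1, ?_⟩, Subset.antisymm (iUnion_subset fun i => (hI i).1) hcov⟩
  · rw [restrict_closure_eq _ (hS i) (hPE.trans (hE i).ge)]
    exact inter_eq_right.2 (hScl i)
  · rw [dual_restrict_dual (M i) (by rw [hE i]; exact union_sdiff_cancel hPE) disjoint_sdiff_right]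
    exact (hI i).2

end Vale.Agent.P068
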