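import Vale.Agent.P068.Defs
import Mathlib.Combinatorics.Matroid.Circuit
import Mathlib.Combinatorics.Matroid.Loop
import Mathlib.SetTheory.Cardinal.Pigeonhole
import Mathlib.SetTheory.Cardinal.Arithmetic
import Mathlib.SetTheory.Cardinal.Ordinal

/-! Families of matroids all of whose independent sets are small. -/

namespace Vale.Agent.P068

open Cardinal Set Matroid

universe u

variable {α Θ : Type u}

lemma mk_biUnion_le_of_le {ι : Type u} {κ : Cardinal.{u}} (hκ : ℵ₀ ≤ κ) (s : Set ι)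
    (A : ι → Set α) (hs : #s ≤ κ) (hA : ∀ i ∈ s, #(A i) ≤ κ) : #(⋃ i ∈ s, A i) ≤ κ := by
  refine (Cardinal.mk_biUnion_le A s).trans ?_
  refine (mul_le_mul' hs (ciSup_le' fun (i : s) => hA i.1 i.2)).trans ?_
  rw [mul_eq_self hκ]

lemma mk_insert_union_le {κ : Cardinal.{u}} (hκ : ℵ₀ ≤ κ) {A : Set α} (hA : #A ≤ κ) (e : α) :
    #(insert e A : Set α) ≤ κ :=
  (Cardinal.mk_insert_le).trans
    (add_le_of_le hκ hA ((Cardinal.one_le_aleph0).trans hκ))

/-- Outside a small set, no small set matters for spanning. -/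
lemma exists_stable {κ : Cardinal.{u}} (hκ : ℵ₀ ≤ κ) (hΘ : #Θ ≤ κ) (E : Set α)
    (M : Θ → Matroid α) (hE : ∀ i, (M i).E = E)
    (hrk : ∀ i I, (M i).Indep I → #I ≤ κ) :
    ∃ K : Set α, K ⊆ E ∧ #K ≤ κ ∧
      ∀ (i : Θ) (L : Set α), #L ≤ κ → E \ K ⊆ (M i).closure ((E \ K) \ L) := by
  classical
  by_contra hno
  push Not at hno
  have hno' : ∀ K : Set α, ∃ d : Θ × Set α × α, K ⊆ E → #K ≤ κ →
      #d.2.1 ≤ κ ∧ d.2.2 ∈ E \ K ∧ d.2.2 ∉ (M d.1).closure ((E \ K) \ d.2.1) := by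
    intro K
    by_cases hK : K ⊆ E ∧ #K ≤ κ
    · obtain ⟨i, L, hL, hn⟩ := hno K hK.1 hK.2
      obtain ⟨e, he, he'⟩ := Set.not_subset.1 hn
      exact ⟨⟨i, L, e⟩, fun _ _ => ⟨hL, he, he'⟩⟩
    · obtain ⟨i, L, hL, hn⟩ := hno ∅ (empty_subset _) (by simp)
      obtain ⟨e, -, -⟩ := Set.not_subset.1 hn
      exact ⟨⟨i, ∅, e⟩, fun h1 h2 => absurd ⟨h1, h2⟩ hK⟩
  choose d hd using hno'
  let T := (Order.succ κ).ord.ToType
  let step : Set α → Set α := fun K => insert (d K).2.2 ((d K).2.1 ∩ E)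
  let K : T → Set α := WellFoundedLT.fix fun t rec => ⋃ s : {s : T // s < t}, step (rec s.1 s.2)
  have hK : ∀ t, K t = ⋃ s : {s : T // s < t}, step (K s.1) := fun t => WellFoundedLT.fix_eq _ t
  have hIio : ∀ t : T, #{s : T // s < t} ≤ κ := fun t =>
    Order.lt_succ_iff.1 (Cardinal.mk_Iio_toType_ord_lt t)
  have hgood : ∀ t, K t ⊆ E ∧ #(K t) ≤ κ := by
    intro t
    induction t using WellFoundedLT.induction with
    | ind t ih =>
      have hst : ∀ s : {s : T // s < t}, step (K s.1) ⊆ E ∧ #(step (K s.1)) ≤ κ := fun s => by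
        obtain ⟨h1, h2⟩ := ih s.1 s.2
        obtain ⟨hL, he, -⟩ := hd _ h1 h2
        exact ⟨insert_subset he.1 inter_subset_right,
          mk_insert_union_le hκ ((mk_le_mk_of_subset inter_subset_left).trans hL) _⟩
      rw [hK t]
      refine ⟨iUnion_subset fun s => (hst s).1, (mk_iUnion_le _).trans ?_⟩
      refine (mul_le_mul' (hIio t) (ciSup_le' fun s => (hst s).2)).trans ?_
      rw [mul_eq_self hκ]
  let e : T → α := fun t => (d (K t)).2.2
  let c : T → Θ := fun t => (d (K t)).1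
  have hout : ∀ s t : T, s < t →
      step (K s) ⊆ K t ∧ e t ∉ step (K s) := fun s t hst => by
    have hsub : step (K s) ⊆ K t := by
      rw [hK t]; exact subset_iUnion (fun r : {r : T // r < t} => step (K r.1)) ⟨s, hst⟩
    exact ⟨hsub, fun h => (hd _ (hgood t).1 (hgood t).2).2.1.2 (hsub h)⟩
  have hinj : Function.Injective e := fun s t hst => by
    by_contra hne
    rcases lt_or_gt_of_ne hne with h | h
    · exact (hout s t h).2 (hst ▸ mem_insert _ _)
    · exact (hout t s h).2 (hst ▸ mem_insert _ _)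
  have hK_lt : ∀ s t : T, s < t → K s ⊆ K t := fun s t hst => by
    rw [hK s, hK t]
    exact iUnion_subset fun r =>
      subset_iUnion (fun r : {r : T // r < t} => step (K r.1)) ⟨r.1, r.2.trans hst⟩
  have hfib : ∀ i, #(c ⁻¹' {i}) ≤ κ := by
    intro i
    rw [← mk_image_eq hinj]
    refine hrk i _ ?_
    have hsub : e '' (c ⁻¹' {i}) ⊆ (M i).E := by
      rintro _ ⟨t, -, rfl⟩
      rw [hE]; exact (hd _ (hgood t).1 (hgood t).2).2.1.1
    by_contra hdep
    obtain ⟨C, hCs, hC⟩ := ((not_indep_iff hsub).1 hdep).exists_isCircuit_subset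
    have hne : (e ⁻¹' C ∩ c ⁻¹' {i}).Nonempty := by
      obtain ⟨x, hx⟩ := hC.nonempty
      obtain ⟨t, ht, rfl⟩ := hCs hx
      exact ⟨t, hx, ht⟩
    obtain ⟨t, ⟨htC, hti⟩, hmin⟩ := wellFounded_lt.has_min _ hne
    have hbad := (hd _ (hgood t).1 (hgood t).2).2.2
    rw [show (d (K t)).1 = i from hti] at hbad
    refine hbad ((M i).closure_subset_closure ?_ (hC.mem_closure_sdiff_singleton_of_mem htC))
    rintro x ⟨hxC, hxne⟩
    obtain ⟨s, hs, rfl⟩ := hCs hxC
    have hts : t < s := lt_of_le_of_ne (not_lt.1 (hmin s ⟨hxC, hs⟩))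
      (fun h => hxne (by rw [h]; rfl))
    have hes : e s ∈ E \ K s := (hd _ (hgood s).1 (hgood s).2).2.1
    exact ⟨⟨hes.1, fun h => hes.2 (hK_lt t s hts h)⟩,
      fun h => (hout t s hts).2 (mem_insert_of_mem _ ⟨h, hes.1⟩)⟩
  have : #T ≤ κ := (mk_le_mk_mul_of_mk_preimage_le c hfib).trans
    ((mul_le_mul' hΘ le_rfl).trans (mul_eq_self hκ).le)
  rw [Cardinal.mk_ord_toType] at this
  exact absurd this (not_le.2 (Order.lt_succ κ))

/-- A partition of the ground set into a packable part and a small part without common loops. -/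
lemma exists_core {κ : Cardinal.{u}} (hκ : ℵ₀ ≤ κ) (hΘ : #Θ ≤ κ) (E : Set α)
    (M : Θ → Matroid α) (hE : ∀ i, (M i).E = E)
    (hrk : ∀ i I, (M i).Indep I → #I ≤ κ) :
    ∃ (P : Set α) (S : Θ → Set α), P ⊆ E ∧ #(E \ P : Set α) ≤ κ ∧
      (∀ e ∈ E \ P, ∃ i, e ∉ (M i).closure P) ∧ (∀ i, S i ⊆ P) ∧
      (∀ i j, i ≠ j → Disjoint (S i) (S j)) ∧ ∀ i, P ⊆ (M i).closure (S i) := by
  classical
  obtain ⟨K, hKE, hK, hst⟩ := exists_stable hκ hΘ E M hE hrk
  let P : Set α := (E \ K) ∪ {e | e ∈ E ∧ ∀ i, e ∈ (M i).closure (E \ K)}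
  have hPE : P ⊆ E := union_subset sdiff_subset fun e he => he.1
  have hPcl : ∀ i, P ⊆ (M i).closure (E \ K) := fun i =>
    union_subset ((M i).subset_closure _ (by rw [hE]; exact sdiff_subset)) fun e he => he.2 i
  have hstP : ∀ (i : Θ) (L : Set α), #L ≤ κ → P ⊆ (M i).closure (P \ L) := fun i L hL =>
    ((hPcl i).trans ((M i).closure_subset_closure_of_subset_closure (hst i L hL))).trans
      ((M i).closure_subset_closure (sdiff_subset_sdiff_left subset_union_left))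
  obtain ⟨r, hr⟩ := exists_wellFoundedLT Θ
  letI := r
  haveI := hr
  let B : Θ → Set α := WellFoundedLT.fix fun i rec =>
    ((M i).exists_isBasis' (P \ ⋃ j : {j : Θ // j < i}, rec j.1 j.2)).choose
  have hB : ∀ i, (M i).IsBasis' (B i) (P \ ⋃ j : {j : Θ // j < i}, B j.1) := fun i => by
    have h := WellFoundedLT.fix_eq (fun (i : Θ) rec =>
      ((M i).exists_isBasis' (P \ ⋃ j : {j : Θ // j < i}, rec j.1 j.2)).choose) i
    change B i = _ at h
    rw [h]
    exact ((M i).exists_isBasis' _).choose_spec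
  refine ⟨P, B, hPE, (mk_le_mk_of_subset fun e he => ?_).trans hK, fun e he => ?_,
    fun i => (hB i).subset.trans sdiff_subset, ?_, fun i => ?_⟩
  · by_contra heK
    exact he.2 (Or.inl ⟨he.1, heK⟩)
  · by_contra hall
    push Not at hall
    exact he.2 (Or.inr ⟨he.1, fun i => (M i).closure_subset_closure_of_subset_closure (hPcl i) (hall i)⟩)
  · have key : ∀ i j, j < i → Disjoint (B i) (B j) := fun i j hji =>
      Set.disjoint_left.2 fun x hx hx' =>
        ((hB i).subset hx).2 (mem_iUnion.2 ⟨⟨j, hji⟩, hx'⟩)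
    intro i j hij
    rcases lt_or_gt_of_ne hij with h | h
    · exact (key j i h).symm
    · exact key i j h
  · rw [(hB i).closure_eq_closure]
    refine hstP i _ ((mk_iUnion_le _).trans ?_)
    refine (mul_le_mul' ((mk_subtype_le _).trans hΘ)
      (ciSup_le' fun j => hrk j.1 _ (hB j.1).indep)).trans ?_
    rw [mul_eq_self hκ]

end Vale.Agent.P068
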