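import Mathlib.Combinatorics.Matroid.Minor.Contract

/-! Packing/covering partitions of families of matroids on a common ground set. -/

namespace Vale.Agent.P068

variable {α Θ : Type*}

/-- The family `M` of matroids on `E` has a packing/covering partition. -/
def HasPackingCovering (E : Set α) (M : Θ → Matroid α) : Prop :=
  ∃ P C : Set α, P ∪ C = E ∧ Disjoint P C ∧ ∃ S I : Θ → Set α,
    (∀ i, S i ⊆ P) ∧ (∀ i j, i ≠ j → Disjoint (S i) (S j)) ∧
    (∀ i, ((M i).restrict P).closure (S i) = P) ∧
    (∀ i, I i ⊆ C ∧ ((M i).dual.restrict C).dual.Indep (I i)) ∧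
    ⋃ i, I i = C

end Vale.Agent.P068
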