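import Vale.Agent.P068.Core

/-! Consequences of the core lemma. -/

namespace Vale.Agent.P068

open Cardinal Set Matroid

universe u

variable {α Θ : Type u}

lemma dual_restrict_dual_eq_contract (N : Matroid α) {P C : Set α} (hPC : P ∪ C = N.E)
    (hd : Disjoint P C) : (N.dual.restrict C).dual = N.contract P := by
  have : C = N.E \ P := by
    rw [← hPC, union_sdiff_left, sdiff_eq_left.2 hd.symm]
  rw [this]; rfl

/-- Reduction to small ground sets. -/
lemma hasPC_of_small (κ : Cardinal.{u}) (hκ : ℵ₀ ≤ κ) (hΘ : #Θ ≤ κ) (E : Set α)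
    (M : Θ → Matroid α) (hE : ∀ i, (M i).E = E) (hrk : ∀ i I, (M i).Indep I → #I ≤ κ)
    (hsmall : ∀ (E' : Set α) (M' : Θ → Matroid α),
      #E' ≤ κ → (∀ i, (M' i).E = E') → HasPackingCovering E' M') :
    HasPackingCovering E M := by
  obtain ⟨P, S, hPE, hC, -, hSP, hSd, hS⟩ := exists_core hκ hΘ E M hE hrk
  obtain ⟨P', C', hPC', hd', S', I', hS'P, hS'd, hS', hI', hIC'⟩ :=
    hsmall (E \ P) (fun i => (M i).contract P) hC (fun i => by rw [contract_ground, hE])
  have hP'E : P' ⊆ E \ P := hPC' ▸ subset_union_left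
  have hC'E : C' ⊆ E \ P := hPC' ▸ subset_union_right
  have hPP : ∀ i, P ∪ P' ⊆ (M i).E := fun i => by
    rw [hE]; exact union_subset hPE (hP'E.trans sdiff_subset)
  have hu : P ∪ P' ∪ C' = E := by rw [union_assoc, hPC', union_sdiff_cancel hPE]
  refine ⟨P ∪ P', C', hu, disjoint_union_left.2
      ⟨disjoint_sdiff_right.mono le_rfl hC'E, hd'⟩,
    fun i => S i ∪ S' i, I', fun i => union_subset_union (hSP i) (hS'P i), ?_, ?_, ?_, hIC'⟩
  · intro i j hij
    have h1 : Disjoint (S i) (S' j) :=
      Set.disjoint_left.2 fun x hx hx' => (hP'E (hS'P j hx')).2 (hSP i hx)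
    have h2 : Disjoint (S' i) (S j) :=
      Set.disjoint_left.2 fun x hx hx' => (hP'E (hS'P i hx)).2 (hSP j hx')
    exact disjoint_union_left.2
      ⟨disjoint_union_right.2 ⟨hSd i j hij, h1⟩, disjoint_union_right.2 ⟨h2, hS'd i j hij⟩⟩
  · intro i
    rw [restrict_closure_eq _ (union_subset_union (hSP i) (hS'P i)) (hPP i)]
    refine inter_eq_right.2 (union_subset ?_ ?_)
    · exact (hS i).trans ((M i).closure_subset_closure subset_union_left)
    · have h := hS' i
      rw [restrict_closure_eq _ (hS'P i) (by rw [contract_ground, hE]; exact hP'E),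
        inter_eq_right, contract_closure_eq] at h
      refine (h.trans sdiff_subset).trans ((M i).closure_subset_closure_of_subset_closure ?_)
      refine union_subset ?_ ((hS i).trans ((M i).closure_subset_closure subset_union_left))
      exact (M i).subset_closure_of_subset' subset_union_right
        ((hS'P i).trans (subset_union_right.trans (hPP i)))
  · intro i
    refine ⟨(hI' i).1, ?_⟩
    have h := (hI' i).2
    rw [dual_restrict_dual_eq_contract _ (by rw [contract_ground, hE, hPC']) hd',
      contract_contract] at h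
    rw [dual_restrict_dual_eq_contract _ (by rw [hE, hu]) (disjoint_union_left.2
      ⟨disjoint_sdiff_right.mono le_rfl hC'E, hd'⟩)]
    exact h

/-- Families in which every matroid occurs as often as possible. -/
lemma hasPC_of_repeated [Infinite Θ] (E : Set α) (M : Θ → Matroid α) (hE : ∀ i, (M i).E = E)
    (hrk : ∀ i I, (M i).Indep I → #I ≤ #Θ)
    (hrep : ∀ i, #{j // M j = M i} = #Θ) : HasPackingCovering E M := by
  classical
  obtain ⟨P, S, hPE, hC, hnl, hSP, hSd, hS⟩ :=
    exists_core (aleph0_le_mk Θ) le_rfl E M hE hrk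
  choose f hf using hnl
  obtain ⟨g⟩ : Nonempty ((E \ P : Set α) ↪ Θ) := hC
  have hcopy : ∀ i, Nonempty (Θ ≃ {j // M j = M i}) := fun i => Cardinal.eq.1 (hrep i).symm
  let cp := fun i => (hcopy i).some
  -- send `x` to a private copy of a matroid in which `x` is not spanned by `P`
  let canon : Matroid α → Θ := fun N => if h : ∃ i, M i = N then h.choose else Classical.arbitrary Θ
  have hcanon : ∀ i, M (canon (M i)) = M i := fun i => by
    have h : ∃ j, M j = M i := ⟨i, rfl⟩
    simp only [canon, dif_pos h]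
    exact h.choose_spec
  let F : (E \ P : Set α) → Θ := fun x => (cp (canon (M (f x.1 x.2))) (g x)).1
  have hFM : ∀ x, M (F x) = M (f x.1 x.2) := fun x =>
    (cp (canon (M (f x.1 x.2))) (g x)).2.trans (hcanon _)
  have hFinj : Function.Injective F := by
    intro x y hxy
    have h : M (f x.1 x.2) = M (f y.1 y.2) := (hFM x).symm.trans (hxy ▸ hFM y)
    have h1 : canon (M (f x.1 x.2)) = canon (M (f y.1 y.2)) := congrArg canon h
    have key : ∀ (i j : Θ) (a b : Θ), i = j → (cp i a).1 = (cp j b).1 → a = b := by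
      rintro i j a b rfl hab
      exact (cp i).injective (Subtype.ext hab)
    exact g.injective (key _ _ _ _ h1 hxy)
  refine ⟨P, E \ P, union_sdiff_cancel hPE, disjoint_sdiff_right, S,
    fun i => {e | ∃ h : e ∈ E \ P, F ⟨e, h⟩ = i}, hSP, hSd, fun i => ?_, fun i => ?_, ?_⟩
  · rw [restrict_closure_eq _ (hSP i) (by rw [hE]; exact hPE), inter_eq_right]
    exact hS i
  · refine ⟨fun e he => he.1, ?_⟩
    rw [dual_restrict_dual_eq_contract _ (by rw [hE, union_sdiff_cancel hPE]) disjoint_sdiff_right]
    beta_reduce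
    rcases Set.eq_empty_or_nonempty {e | ∃ h : e ∈ E \ P, F ⟨e, h⟩ = i} with h0 | ⟨e, he, hei⟩
    · rw [h0]; exact empty_indep _
    · have : {e | ∃ h : e ∈ E \ P, F ⟨e, h⟩ = i} = {e} := by
        refine Set.eq_singleton_iff_unique_mem.2 ⟨⟨he, hei⟩, ?_⟩
        rintro e' ⟨he', hei'⟩
        exact congrArg Subtype.val (hFinj (hei'.trans hei.symm))
      rw [this, indep_singleton, contract_isNonloop_iff, hE]
      refine ⟨he.1, ?_⟩
      rw [← hei, hFM]
      exact hf e he
  · ext e
    simp only [mem_iUnion, mem_ofPred_eq]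
    exact ⟨fun ⟨_, h, _⟩ => h, fun h => ⟨_, h, rfl⟩⟩

end Vale.Agent.P068
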