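import Vale.Agent.P068.Defs
import Mathlib.Order.Zorn

/-! Adjoining any number of uniform matroids preserves packing/covering. -/

namespace Vale.Agent.P068

open Set Matroid

variable {α Θ K : Type*}

/-- Contraction onto `C` in the form of the definition, when `P ∪ C` is the ground set. -/
lemma dual_restrict_dual (N : Matroid α) {P C : Set α} (hu : P ∪ C = N.E) (hd : Disjoint P C) :
    (N.dual.restrict C).dual = N ／ P := by
  have hPC : N.E \ P = C := by rw [← hu, union_sdiff_left]; exact hd.symm.sdiff_eq_left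
  refine dual_inj.1 ?_
  rw [dual_dual, dual_contract, delete_eq_restrict, dual_ground, hPC]

/-- Uniform matroids pack inside `R` or cover it. -/
lemma pack_or_cover {E : Set α} (U : K → Matroid α)
    (hU : ∀ k X, X ⊆ E → (U k).Indep X ∨ (U k).Spanning X) {R : Set α} (hR : R ⊆ E) :
    (∃ T : K → Set α, (∀ k, T k ⊆ R) ∧ (∀ k l, k ≠ l → Disjoint (T k) (T l)) ∧
      ∀ k, (U k).IsBase (T k)) ∨
    ∃ J : K → Set α, (∀ k, J k ⊆ R) ∧ (∀ k, (U k).Indep (J k)) ∧ R ⊆ ⋃ k, J k := by
  classical
  let good : Set (Set (K × Set α)) := {G | (∀ p ∈ G, p.2 ⊆ R ∧ (U p.1).IsBase p.2) ∧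
    G.Pairwise fun p q => p.1 ≠ q.1 ∧ Disjoint p.2 q.2}
  obtain ⟨G, hG⟩ : ∃ G, Maximal (· ∈ good) G := zorn_subset good fun c hc hchain =>
    ⟨⋃₀ c, ⟨fun p hp => by obtain ⟨G, hG, hpG⟩ := hp; exact (hc hG).1 p hpG,
      (pairwise_sUnion hchain.directedOn).2 fun G hG => (hc hG).2⟩,
      fun _ => subset_sUnion_of_mem⟩
  obtain ⟨hGb, hGd⟩ := hG.prop
  have huniq : ∀ p ∈ G, ∀ q ∈ G, p.1 = q.1 → p = q := fun p hp q hq h =>
    by_contra fun hne => (hGd hp hq hne).1 h
  by_cases hall : ∀ k, ∃ T, (k, T) ∈ G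
  · choose T hT using hall
    exact Or.inl ⟨T, fun k => (hGb _ (hT k)).1,
      fun k l h => (hGd (hT k) (hT l) fun e => h (congrArg Prod.fst e)).2,
      fun k => (hGb _ (hT k)).2⟩
  push Not at hall
  obtain ⟨k, hk⟩ := hall
  set R' := R \ ⋃ p ∈ G, p.2 with hR'
  have hind : (U k).Indep R' := by
    refine (hU k R' (sdiff_subset.trans hR)).resolve_right fun hsp => ?_
    obtain ⟨B, hB, hBR⟩ := hsp.exists_isBase_subset
    have hins : insert (k, B) G ∈ good := by
      refine ⟨?_, hGd.insert fun q hq _ => ?_⟩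
      · rintro p (rfl | hp)
        · exact ⟨hBR.trans sdiff_subset, hB⟩
        · exact hGb p hp
      · have hne : k ≠ q.1 := by rintro rfl; exact hk q.2 hq
        have hdis : Disjoint B q.2 := Set.disjoint_left.2 fun x hx hx' =>
          (hBR hx).2 (mem_biUnion hq hx')
        exact ⟨⟨hne, hdis⟩, hne.symm, hdis.symm⟩
    exact hk B (hG.2 hins (subset_insert _ _) (mem_insert _ _))
  refine Or.inr ⟨fun j => if j = k then R' else ⋃ p ∈ {p ∈ G | p.1 = j}, p.2, ?_, ?_, ?_⟩
  · intro j
    dsimp only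
    split_ifs
    · exact sdiff_subset
    · exact iUnion₂_subset fun p hp => (hGb p hp.1).1
  · intro j
    dsimp only
    split_ifs with h
    · exact h ▸ hind
    · by_cases hj : ∃ p ∈ G, p.1 = j
      · obtain ⟨p, hp, rfl⟩ := hj
        have : {q ∈ G | q.1 = p.1} = {p} := by
          ext q
          exact ⟨fun hq => huniq q hq.1 p hp hq.2, fun hq => by
            rw [mem_singleton_iff] at hq; subst hq; exact ⟨hp, rfl⟩⟩
        rw [this, biUnion_singleton]
        exact (hGb p hp).2.indep
      · push Not at hj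
        have : {q ∈ G | q.1 = j} = ∅ := eq_empty_iff_forall_notMem.2 fun q hq => hj q hq.1 hq.2
        rw [this, biUnion_empty]
        exact (U j).empty_indep
  · intro x hx
    by_cases hxG : x ∈ ⋃ p ∈ G, p.2
    · obtain ⟨p, hp, hxp⟩ := mem_iUnion₂.1 hxG
      refine mem_iUnion.2 ⟨p.1, ?_⟩
      rw [if_neg (by rintro rfl; exact hk p.2 hp)]
      exact mem_biUnion ⟨hp, rfl⟩ hxp
    · exact mem_iUnion.2 ⟨k, by rw [if_pos rfl]; exact ⟨hx, hxG⟩⟩

/-- Adjoining uniform matroids preserves packing/covering partitions. -/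
theorem hasPC_sum_uniform {E : Set α} (M : Θ → Matroid α) (U : K → Matroid α)
    (hME : ∀ i, (M i).E = E) (hUE : ∀ k, (U k).E = E)
    (hU : ∀ k X, X ⊆ E → (U k).Indep X ∨ (U k).Spanning X) (h : HasPackingCovering E M) :
    HasPackingCovering E (Sum.elim M U) := by
  classical
  obtain ⟨P, C, hu, hd, S, I, hSP, hSd, hScl, hI, hIC⟩ := h
  have hPE : P ⊆ E := hu ▸ subset_union_left
  have hPS : ∀ i, P ⊆ (M i).closure (S i) := fun i => by
    have h := hScl i
    rw [restrict_closure_eq _ (hSP i) ((hME i).symm ▸ hPE)] at h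
    exact inter_eq_right.1 h
  have hB : ∀ i, ∃ B, (M i).IsBasis B (S i) := fun i =>
    (M i).exists_isBasis (S i) ((hSP i).trans ((hME i).symm ▸ hPE))
  choose B hB using hB
  have hBP : ∀ i, (M i).IsBasis (B i) P := fun i =>
    (hB i).indep.isBasis_of_subset_of_subset_closure ((hB i).subset.trans (hSP i))
      ((hB i).closure_eq_closure ▸ hPS i)
  have hBd : ∀ i j, i ≠ j → Disjoint (B i) (B j) := fun i j h =>
    (hSd i j h).mono (hB i).subset (hB j).subset
  have hR : P \ ⋃ i, B i ⊆ E := sdiff_subset.trans hPE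
  rcases pack_or_cover U hU hR with ⟨T, hT, hTd, hTb⟩ | ⟨J, hJ, hJi, hJc⟩
  · refine ⟨P, C, hu, hd, Sum.elim B T, Sum.elim I fun _ => ∅, ?_, ?_, ?_, ?_, ?_⟩
    · rintro (i | k)
      · exact (hBP i).subset
      · exact (hT k).trans sdiff_subset
    · rintro (i | k) (j | l) h
      · exact hBd i j fun e => h (congrArg Sum.inl e)
      · exact Set.disjoint_left.2 fun x hx hx' => (hT l hx').2 (mem_iUnion.2 ⟨i, hx⟩)
      · exact Set.disjoint_left.2 fun x hx hx' => (hT k hx).2 (mem_iUnion.2 ⟨j, hx'⟩)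
      · exact hTd k l fun e => h (congrArg Sum.inr e)
    · rintro (i | k)
      · simp only [Sum.elim_inl]
        rw [restrict_closure_eq _ (hBP i).subset ((hME i).symm ▸ hPE)]
        exact inter_eq_right.2 (hBP i).subset_closure
      · simp only [Sum.elim_inr]
        rw [restrict_closure_eq _ ((hT k).trans sdiff_subset) ((hUE k).symm ▸ hPE),
          (hTb k).closure_eq, hUE k]
        exact inter_eq_right.2 hPE
    · rintro (i | k)
      · exact hI i
      · exact ⟨empty_subset _, empty_indep _⟩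
    · rw [iUnion_sumElim, hIC]
      simp
  · refine ⟨∅, E, empty_union _, empty_disjoint _, fun _ => ∅,
      Sum.elim (fun i => B i ∪ I i) J, fun _ => Subset.rfl, fun _ _ _ => empty_disjoint _,
      ?_, ?_, ?_⟩
    · intro i
      rw [restrict_closure_eq _ Subset.rfl (empty_subset _), inter_empty]
    · rintro (i | k)
      · refine ⟨union_subset ((hBP i).subset.trans hPE) ((hI i).1.trans (hu ▸ subset_union_right)), ?_⟩
        simp only [Sum.elim_inl]
        rw [dual_restrict_dual (M i) (P := ∅) (by rw [empty_union, hME i]) (empty_disjoint _),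
          contract_empty]
        have h := (hI i).2
        rw [dual_restrict_dual (M i) (by rw [hu, hME i]) hd, (hBP i).contract_indep_iff] at h
        rw [union_comm]
        exact h.1
      · refine ⟨(hJ k).trans hR, ?_⟩
        simp only [Sum.elim_inr]
        rw [dual_restrict_dual (U k) (P := ∅) (by rw [empty_union, hUE k]) (empty_disjoint _),
          contract_empty]
        exact hJi k
    · refine Subset.antisymm ?_ fun x hx => ?_
      · refine iUnion_subset ?_
        rintro (i | k)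
        · exact union_subset ((hBP i).subset.trans hPE) ((hI i).1.trans (hu ▸ subset_union_right))
        · exact (hJ k).trans hR
      · rw [iUnion_sumElim]
        rcases hu.symm ▸ hx with hxP | hxC
        · by_cases hxB : x ∈ ⋃ i, B i
          · obtain ⟨i, hi⟩ := mem_iUnion.1 hxB
            exact Or.inl (mem_iUnion.2 ⟨i, Or.inl hi⟩)
          · exact Or.inr (hJc ⟨hxP, hxB⟩)
        · rw [← hIC] at hxC
          obtain ⟨i, hi⟩ := mem_iUnion.1 hxC
          exact Or.inl (mem_iUnion.2 ⟨i, Or.inr hi⟩)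

/-- A family in which at most one member is not uniform. -/
theorem hasPC_uniform_but_one {E : Set α} (M : Θ → Matroid α) (hME : ∀ i, (M i).E = E)
    (hone : ∀ i j, i ≠ j → (∀ X, X ⊆ E → (M i).Indep X ∨ (M i).Spanning X) ∨
      (∀ X, X ⊆ E → (M j).Indep X ∨ (M j).Spanning X)) :
    HasPackingCovering E M := by
  classical
  let bad : Θ → Prop := fun i => ¬ ∀ X, X ⊆ E → (M i).Indep X ∨ (M i).Spanning X
  have hsub : Subsingleton {i // bad i} :=
    ⟨fun i j => by_contra fun h => (hone i.1 j.1 fun e => h (Subtype.ext e)).elim i.2 j.2⟩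
  have h0 : HasPackingCovering E (fun i : {i // bad i} => M i) := by
    refine ⟨E, ∅, union_empty _, disjoint_empty _, fun _ => E, fun _ => ∅, fun _ => Subset.rfl,
      fun i j h => absurd (Subsingleton.elim i j) h, fun i => ?_,
      fun i => ⟨Subset.rfl, empty_indep _⟩, iUnion_empty⟩
    rw [restrict_closure_eq _ Subset.rfl (hME i.1).ge, inter_eq_right]
    exact (M i.1).subset_closure _ (hME i.1).ge
  obtain ⟨P, C, hu, hd, S, I, h1, h2, h3, h4, h5⟩ :=
    hasPC_sum_uniform (fun i : {i // bad i} => M i) (fun i : {i // ¬ bad i} => M i)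
      (fun i => hME i.1) (fun i => hME i.1) (fun i : {i // ¬ bad i} => not_not.1 i.2) h0
  let e : Θ → {i // bad i} ⊕ {i // ¬ bad i} := (Equiv.sumCompl bad).symm
  have he : ∀ i, Sum.elim (fun i : {i // bad i} => M i) (fun i : {i // ¬ bad i} => M i) (e i) = M i := by
    intro i
    by_cases hi : bad i
    · simp only [e, Equiv.sumCompl_symm_apply_of_pos hi, Sum.elim_inl]
    · simp only [e, Equiv.sumCompl_symm_apply_of_neg hi, Sum.elim_inr]
  refine ⟨P, C, hu, hd, fun i => S (e i), fun i => I (e i), fun i => h1 _,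
    fun i j h => h2 _ _ ((Equiv.sumCompl bad).symm.injective.ne h), fun i => he i ▸ h3 (e i),
    fun i => he i ▸ h4 (e i), ?_⟩
  exact ((Equiv.sumCompl bad).symm.surjective.iUnion_comp I).trans h5

end Vale.Agent.P068
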